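import Vale.Agent.P248Z.HL.Final

/-!
# P248, Q1: the symmetric Mahler conjecture with its equality case
-/

open MeasureTheory

/-- For every `n ≥ 1` and every origin-symmetric convex body `K` in `ℝ^n`, the product of the
volumes of `K` and of its polar is at least `4^n / n!`, with equality if and only if `K` is an
invertible linear image of a Hanner polytope. -/
theorem Vale.Agent.Results.P248.ASymmetricMahler.result (n : ℕ) (hn : 1 ≤ n)
    (K : Set (EuclideanSpace ℝ (Fin n))) (hcomp : IsCompact K) (hconv : Convex ℝ K)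
    (hint : (interior K).Nonempty) (hsymm : K = -K) :
    ENNReal.ofReal ((4 : ℝ) ^ n / n.factorial) ≤
        volume K * volume {y : EuclideanSpace ℝ (Fin n) | ∀ x ∈ K, inner ℝ y x ≤ (1 : ℝ)} ∧
      (volume K * volume {y : EuclideanSpace ℝ (Fin n) | ∀ x ∈ K, inner ℝ y x ≤ (1 : ℝ)} =
          ENNReal.ofReal ((4 : ℝ) ^ n / n.factorial) ↔
        ∃ (H : Set (EuclideanSpace ℝ (Fin n)))
          (T : EuclideanSpace ℝ (Fin n) ≃ₗ[ℝ] EuclideanSpace ℝ (Fin n)),
          Vale.Agent.P248Z.Han.IsHanner n H ∧ K = T '' H) :=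
  Vale.Agent.P248Z.HL.q1 hn (Vale.Agent.P248Z.Han.symBody_of_neg_eq hcomp hconv hint hsymm)
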